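import Mathlib
import Crest.Prelude.Def_QuadricHamiltonian

/-! Cayley rotations of the unit isotropic cone and composition of Hamiltonian lifts. -/

set_option autoImplicit false

namespace Crest.Agent.R205

open Crest.GeometryTopology.Quadric

abbrev E := Fin 5 → ℂ

/-- The complex bilinear pairing. -/
def bil (u v : E) : ℂ := ∑ j, u j * v j

lemma herm_add_left (u v w : E) : herm (u + v) w = herm u w + herm v w := by
  simp [herm, add_mul, Finset.sum_add_distrib]

lemma herm_add_right (u v w : E) : herm u (v + w) = herm u v + herm u w := by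
  simp [herm, mul_add, Finset.sum_add_distrib]

lemma herm_rsmul_left (a : ℝ) (u w : E) : herm (a • u) w = a * herm u w := by
  simp [herm, Finset.mul_sum, mul_assoc]

lemma herm_rsmul_right (a : ℝ) (u w : E) : herm u (a • w) = a * herm u w := by
  simp [herm, Finset.mul_sum, mul_left_comm]

lemma herm_smul_right (a : ℂ) (u w : E) : herm u (a • w) = a * herm u w := by
  simp [herm, Finset.mul_sum, mul_left_comm]

lemma herm_smul_left (a : ℂ) (u w : E) : herm (a • u) w = (starRingEnd ℂ a) * herm u w := by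
  simp [herm, Finset.mul_sum, mul_assoc]

lemma herm_neg_right (u w : E) : herm u (-w) = - herm u w := by
  simp [herm]

lemma herm_neg_left (u w : E) : herm (-u) w = - herm u w := by
  simp [herm]

lemma herm_conj (u w : E) : starRingEnd ℂ (herm u w) = herm w u := by
  simp [herm, mul_comm]

lemma bil_add_left (u v w : E) : bil (u + v) w = bil u w + bil v w := by
  simp [bil, add_mul, Finset.sum_add_distrib]

lemma bil_add_right (u v w : E) : bil u (v + w) = bil u v + bil u w := by
  simp [bil, mul_add, Finset.sum_add_distrib]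

lemma bil_rsmul_left (a : ℝ) (u w : E) : bil (a • u) w = a * bil u w := by
  simp [bil, Finset.mul_sum, mul_assoc]

lemma bil_rsmul_right (a : ℝ) (u w : E) : bil u (a • w) = a * bil u w := by
  simp [bil, Finset.mul_sum, mul_left_comm]

lemma bil_neg_right (u w : E) : bil u (-w) = - bil u w := by
  simp [bil]

lemma mem_cone_iff (z : E) : z ∈ unitCone ↔ herm z z = 1 ∧ bil z z = 0 := by
  simp [unitCone, bil, sq]

lemma mem_tangent_iff (z w : E) : w ∈ coneTangent z ↔ (herm z w).re = 0 ∧ bil z w = 0 := by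
  simp [coneTangent, bil]

lemma contDiff_herm {X : Type*} [NormedAddCommGroup X] [NormedSpace ℝ X] {n : WithTop ℕ∞}
    {f g : X → E} (hf : ContDiff ℝ n f) (hg : ContDiff ℝ n g) :
    ContDiff ℝ n (fun x => herm (f x) (g x)) := by
  unfold herm
  refine ContDiff.sum fun j _ => ?_
  have h1 : ContDiff ℝ n (fun x => f x j) := contDiff_pi.1 hf j
  have h2 : ContDiff ℝ n (fun x => g x j) := contDiff_pi.1 hg j
  exact (Complex.conjCLE.contDiff.comp h1).mul h2

lemma hasDerivAt_herm {f g : ℝ → E} {f' g' : E} {t : ℝ} (hf : HasDerivAt f f' t)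
    (hg : HasDerivAt g g' t) :
    HasDerivAt (fun s => herm (f s) (g s)) (herm f' (g t) + herm (f t) g') t := by
  unfold herm
  rw [← Finset.sum_add_distrib]
  refine HasDerivAt.fun_sum fun j _ => ?_
  have h1 : HasDerivAt (fun s => f s j) (f' j) t := hasDerivAt_pi.1 hf j
  have h2 : HasDerivAt (fun s => g s j) (g' j) t := hasDerivAt_pi.1 hg j
  have h3 : HasDerivAt (fun s => starRingEnd ℂ (f s j)) (starRingEnd ℂ (f' j)) t :=
    Complex.conjCLE.hasFDerivAt.comp_hasDerivAt t h1
  exact h3.mul h2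

lemma hasDerivAt_im {f : ℝ → ℂ} {f' : ℂ} {t : ℝ} (hf : HasDerivAt f f' t) :
    HasDerivAt (fun s => (f s).im) f'.im t :=
  Complex.imCLM.hasFDerivAt.comp_hasDerivAt t hf

lemma hasDerivAt_re {f : ℝ → ℂ} {f' : ℂ} {t : ℝ} (hf : HasDerivAt f f' t) :
    HasDerivAt (fun s => (f s).re) f'.re t :=
  Complex.reCLM.hasFDerivAt.comp_hasDerivAt t hf

/-- The value of the derivative on a vector is the derivative along the line. -/
lemma fderiv_apply_eq {F : Type*} [NormedAddCommGroup F] [NormedSpace ℝ F] {f : E → F} {p w : E}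
    {d : F} (hf : DifferentiableAt ℝ f p) (hd : HasDerivAt (fun τ : ℝ => f (p + τ • w)) d 0) :
    fderiv ℝ f p w = d := by
  rw [← hf.lineDeriv_eq_fderiv]
  exact hd.deriv

lemma hasDerivAt_line (p w : E) : HasDerivAt (fun τ : ℝ => p + τ • w) w 0 := by
  simpa using ((hasDerivAt_id (0 : ℝ)).smul_const w).const_add p

/-- A real skew generator with `B ^ 3 = - ρ B`. -/
structure Gen where
  B : E →L[ℂ] E
  ρ : ℝ
  ρ_nonneg : 0 ≤ ρ
  cube : ∀ z, B (B (B z)) = (-ρ) • B z
  herm_skew : ∀ u v, herm (B u) v = - herm u (B v)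
  bil_skew : ∀ u v, bil (B u) v = - bil u (B v)

namespace Gen

variable (g : Gen)

/-- The speed factor. -/
noncomputable def k (t : ℝ) : ℝ := 2 / (1 + t ^ 2 * g.ρ)

lemma den_pos (t : ℝ) : 0 < 1 + t ^ 2 * g.ρ := by
  have := g.ρ_nonneg
  positivity

lemma B_rsmul (a : ℝ) (z : E) : g.B (a • z) = a • g.B z := by
  simp

/-- The Cayley rotation with parameter `t`. -/
noncomputable def cay (t : ℝ) (z : E) : E :=
  z + (g.k t * t) • g.B z + (g.k t * t ^ 2) • g.B (g.B z)

lemma k_neg (t : ℝ) : g.k (-t) = g.k t := by simp [k]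

lemma k_mul (t : ℝ) : g.k t * (1 + t ^ 2 * g.ρ) = 2 := by
  have := g.den_pos t
  unfold k
  field_simp

lemma cay_zero (z : E) : g.cay 0 z = z := by simp [cay]

lemma cay_add (t : ℝ) (u v : E) : g.cay t (u + v) = g.cay t u + g.cay t v := by
  simp only [cay, map_add, smul_add]
  abel

lemma cay_smul (t : ℝ) (c : ℂ) (z : E) : g.cay t (c • z) = c • g.cay t z := by
  simp only [cay, map_smul, smul_add]
  rw [smul_comm c, smul_comm c]

lemma cay_rsmul (t : ℝ) (c : ℝ) (z : E) : g.cay t (c • z) = c • g.cay t z := by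
  simp only [cay, B_rsmul, smul_add]
  rw [smul_comm c, smul_comm c]

lemma B_cay (t : ℝ) (z : E) :
    g.B (g.cay t z) = (g.k t - 1) • g.B z + (g.k t * t) • g.B (g.B z) := by
  have hk := g.k_mul t
  simp only [cay, map_add, B_rsmul, g.cube, smul_smul]
  have : g.k t - 1 = 1 + g.k t * t ^ 2 * -g.ρ := by linear_combination hk
  rw [this, add_smul, one_smul]
  abel

/-- The defining relation of the Cayley rotation. -/
lemma cay_sub (t : ℝ) (z : E) : g.cay t z - z = t • g.B (g.cay t z + z) := by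
  rw [map_add, B_cay]
  simp only [cay, smul_add, smul_smul]
  module

lemma cay_cay_neg (t : ℝ) (z : E) : g.cay t (g.cay (-t) z) = z := by
  have hk := g.k_mul t
  have h1 := g.B_cay (-t) z
  have h2 : g.B (g.B (g.cay (-t) z)) =
      (g.k t - 1) • g.B (g.B z) + (g.k t * t * g.ρ) • g.B z := by
    rw [h1, map_add, B_rsmul, B_rsmul, g.cube, smul_smul, k_neg]
    congr 2
    ring
  rw [cay, h2, h1, cay, k_neg]
  match_scalars
  · ring
  · linear_combination (g.k t * t) * hk
  · ring

lemma cay_neg_cay (t : ℝ) (z : E) : g.cay (-t) (g.cay t z) = z := by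
  simpa using g.cay_cay_neg (-t) z

lemma herm_cay_left (t : ℝ) (u v : E) : herm (g.cay t u) v = herm u (g.cay (-t) v) := by
  simp only [cay, herm_add_left, herm_add_right, herm_rsmul_left, herm_rsmul_right, g.herm_skew,
    k_neg]
  push_cast
  ring

lemma bil_cay_left (t : ℝ) (u v : E) : bil (g.cay t u) v = bil u (g.cay (-t) v) := by
  simp only [cay, bil_add_left, bil_add_right, bil_rsmul_left, bil_rsmul_right, g.bil_skew,
    k_neg]
  push_cast
  ring

lemma cay_mem_cone (t : ℝ) {z : E} (hz : z ∈ unitCone) : g.cay t z ∈ unitCone := by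
  rw [mem_cone_iff] at hz ⊢
  rw [herm_cay_left, bil_cay_left, cay_neg_cay]
  exact hz

lemma contDiff_k : ContDiff ℝ (⊤ : ℕ∞) g.k := by
  unfold k
  exact contDiff_const.div (by fun_prop) fun t => (g.den_pos t).ne'

lemma contDiff_B : ContDiff ℝ (⊤ : ℕ∞) (fun z : E => g.B z) :=
  (g.B.restrictScalars ℝ).contDiff

lemma contDiff_cay {X : Type*} [NormedAddCommGroup X] [NormedSpace ℝ X]
    {f : X → ℝ} {γ : X → E} (hf : ContDiff ℝ (⊤ : ℕ∞) f) (hγ : ContDiff ℝ (⊤ : ℕ∞) γ) :
    ContDiff ℝ (⊤ : ℕ∞) (fun x => g.cay (f x) (γ x)) := by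
  unfold cay
  have hk : ContDiff ℝ (⊤ : ℕ∞) (fun x => g.k (f x)) := g.contDiff_k.comp hf
  have h1 : ContDiff ℝ (⊤ : ℕ∞) (fun x => g.B (γ x)) := g.contDiff_B.comp hγ
  have h2 : ContDiff ℝ (⊤ : ℕ∞) (fun x => g.B (g.B (γ x))) := g.contDiff_B.comp h1
  exact (hγ.add ((hk.mul hf).smul h1)).add ((hk.mul (hf.pow 2)).smul h2)

lemma hasDerivAt_k (t : ℝ) : HasDerivAt g.k (-(g.k t) ^ 2 * t * g.ρ) t := by
  have hd := g.den_pos t
  have h1 : HasDerivAt (fun s : ℝ => 1 + s ^ 2 * g.ρ) (2 * t * g.ρ) t := by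
    simpa using ((hasDerivAt_pow 2 t).mul_const g.ρ).const_add 1
  have h2 := (hasDerivAt_const t (2 : ℝ)).div h1 hd.ne'
  refine HasDerivAt.congr_deriv h2 ?_
  unfold k
  field_simp
  ring

lemma hasDerivAt_B {γ : ℝ → E} {γ' : E} {t : ℝ} (hγ : HasDerivAt γ γ' t) :
    HasDerivAt (fun s => g.B (γ s)) (g.B γ') t :=
  (g.B.restrictScalars ℝ).hasFDerivAt.comp_hasDerivAt t hγ

/-- Derivative along a curve at a fixed parameter. -/
lemma hasDerivAt_cay_const (a : ℝ) {γ : ℝ → E} {γ' : E} {t : ℝ} (hγ : HasDerivAt γ γ' t) :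
    HasDerivAt (fun s => g.cay a (γ s)) (g.cay a γ') t := by
  unfold cay
  exact (hγ.add ((g.hasDerivAt_B hγ).const_smul (g.k a * a))).add
    ((g.hasDerivAt_B (g.hasDerivAt_B hγ)).const_smul (g.k a * a ^ 2))

lemma hasDerivAt_cay {γ : ℝ → E} {γ' : E} {t : ℝ} (hγ : HasDerivAt γ γ' t) :
    HasDerivAt (fun s => g.cay s (γ s)) (g.k t • g.B (g.cay t (γ t)) + g.cay t γ') t := by
  have hk := g.hasDerivAt_k t
  have hm := g.k_mul t
  have h1 := g.hasDerivAt_B hγ
  have h2 := g.hasDerivAt_B h1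
  have ha := hk.mul (hasDerivAt_id t)
  have hb := hk.mul (hasDerivAt_pow 2 t)
  have := (hγ.add (ha.smul h1)).add (hb.smul h2)
  refine HasDerivAt.congr_deriv this ?_
  rw [B_cay, cay]
  simp only [Pi.mul_apply, id]
  match_scalars
  · ring
  · ring
  · linear_combination (-g.k t) * hm
  · ring
  · linear_combination (-g.k t * t) * hm

/-- The quadratic Hamiltonian of the generator. -/
noncomputable def K (z : E) : ℝ := (herm (g.B z) z).im

lemma contDiff_K {X : Type*} [NormedAddCommGroup X] [NormedSpace ℝ X]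
    {γ : X → E} (hγ : ContDiff ℝ (⊤ : ℕ∞) γ) :
    ContDiff ℝ (⊤ : ℕ∞) (fun x => g.K (γ x)) :=
  Complex.imCLM.contDiff.comp (contDiff_herm (g.contDiff_B.comp hγ) hγ)

lemma hasDerivAt_K (p w : E) :
    HasDerivAt (fun τ : ℝ => g.K (p + τ • w)) (2 * (herm (g.B p) w).im) 0 := by
  have h := hasDerivAt_line p w
  have h1 := hasDerivAt_im (hasDerivAt_herm (g.hasDerivAt_B h) h)
  refine HasDerivAt.congr_deriv h1 ?_
  simp only [zero_smul, add_zero, Complex.add_im]
  rw [g.herm_skew w p, ← herm_conj (g.B p) w]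
  simp
  ring

lemma K_smul (c : ℂ) (hc : ‖c‖ = 1) (z : E) : g.K (c • z) = g.K z := by
  unfold K
  rw [map_smul, herm_smul_left, herm_smul_right, ← mul_assoc, Complex.conj_mul', hc]
  simp

/-- Compose a Hamiltonian lift with the path of Cayley rotations of a generator. -/
noncomputable def compose (L : HamiltonianConeLift) : HamiltonianConeLift where
  Ψ := fun p => g.cay p.1 (L.Ψ p)
  H := fun p => g.k p.1 * g.K p.2 + L.H (p.1, g.cay (-p.1) p.2)
  smooth_Ψ := g.contDiff_cay contDiff_fst L.smooth_Ψ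
  smooth_H := ((g.contDiff_k.comp contDiff_fst).mul (g.contDiff_K contDiff_snd)).add
    (L.smooth_H.comp (contDiff_fst.prodMk (g.contDiff_cay contDiff_fst.neg contDiff_snd)))
  mapsTo_cone := fun t z hz => g.cay_mem_cone t (L.mapsTo_cone t z hz)
  compatible := fun t z hz c hc => by
    obtain ⟨c', h⟩ := L.compatible t z hz c hc
    exact ⟨c', by simp only [h, cay_smul]⟩
  start := fun z hz => by
    obtain ⟨c, h⟩ := L.start z hz
    exact ⟨c, by simp only [h, cay_zero]⟩
  invariant := fun t z hz c hc => by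
    simp only [g.K_smul c hc, cay_smul]
    rw [L.invariant t _ (g.cay_mem_cone (-t) hz) c hc]
  hamilton := fun t ht z hz w hw => by
    have hne : ((⊤ : ℕ∞) : WithTop ℕ∞) ≠ 0 := by simp
    have hd : DifferentiableAt ℝ (fun s : ℝ => L.Ψ (s, z)) t :=
      ((L.smooth_Ψ.comp (contDiff_id.prodMk contDiff_const)).differentiable hne) t
    have hH : Differentiable ℝ (fun x : E => L.H (t, x)) :=
      (L.smooth_H.comp (contDiff_const.prodMk contDiff_id)).differentiable hne
    have h1 := (g.hasDerivAt_cay hd.hasDerivAt).deriv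
    simp only at h1 hw ⊢
    rw [h1]
    set p := L.Ψ (t, z) with hp
    have hw' : g.cay (-t) w ∈ coneTangent p := by
      rw [mem_tangent_iff] at hw ⊢
      rwa [herm_cay_left, bil_cay_left] at hw
    have h2 := L.hamilton t ht z hz _ hw'
    have hdiff : DifferentiableAt ℝ
        (fun x : E => g.k t * g.K x + L.H (t, g.cay (-t) x)) (g.cay t p) := by
      have : ContDiff ℝ (⊤ : ℕ∞) (fun x : E => g.k t * g.K x + L.H (t, g.cay (-t) x)) :=
        (contDiff_const.mul (g.contDiff_K contDiff_id)).add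
          (L.smooth_H.comp (contDiff_const.prodMk (g.contDiff_cay contDiff_const contDiff_id)))
      exact this.differentiable hne _
    have h3 : HasDerivAt (fun τ : ℝ => L.H (t, g.cay (-t) (g.cay t p + τ • w)))
        (fderiv ℝ (fun x : E => L.H (t, x)) p (g.cay (-t) w)) 0 := by
      have h4 := g.hasDerivAt_cay_const (-t) (hasDerivAt_line (g.cay t p) w)
      refine (hH p).hasFDerivAt.comp_hasDerivAt_of_eq 0 h4 ?_
      simp [cay_neg_cay]
    rw [fderiv_apply_eq hdiff (((g.hasDerivAt_K (g.cay t p) w).const_mul (g.k t)).add h3),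
      ← h2, herm_add_left, herm_rsmul_left, herm_cay_left]
    simp
    ring

end Gen

end Crest.Agent.R205
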