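import Crest.Agent.R205.Twist

/-! The Hamiltonian diffeomorphism and its fixed points. -/

set_option autoImplicit false

namespace Crest.Agent.R205

open Crest.GeometryTopology.Quadric

noncomputable def TL : E →ₗ[ℂ] E where
  toFun v := ![v 2 / 4, v 2 / 4, -(v 0 + v 1) / 4, 0, 0]
  map_add' u v := by
    ext j
    simp only [Pi.add_apply]
    fin_cases j <;> simp <;> ring
  map_smul' r v := by
    ext j
    simp only [Pi.smul_apply]
    fin_cases j <;> simp <;> ring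

lemma TL_apply (v : E) : TL v = ![v 2 / 4, v 2 / 4, -(v 0 + v 1) / 4, 0, 0] := rfl

noncomputable def gT : Gen where
  B := LinearMap.toContinuousLinearMap TL
  ρ := 1 / 8
  ρ_nonneg := by norm_num
  cube z := by
    ext j
    simp only [Pi.smul_apply]
    fin_cases j <;> simp [TL_apply] <;> ring
  herm_skew u v := by
    simp [herm, Fin.sum_univ_five, TL_apply, map_ofNat]
    ring
  bil_skew u v := by
    simp [bil, Fin.sum_univ_five, TL_apply]
    ring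

noncomputable def JL : E →ₗ[ℂ] E where
  toFun v := ![v 1, -v 0, v 3, -v 2, 0]
  map_add' u v := by
    ext j
    simp only [Pi.add_apply]
    fin_cases j <;> simp <;> ring
  map_smul' r v := by
    ext j
    simp only [Pi.smul_apply]
    fin_cases j <;> simp

lemma JL_apply (v : E) : JL v = ![v 1, -v 0, v 3, -v 2, 0] := rfl

noncomputable def gJ : Gen where
  B := LinearMap.toContinuousLinearMap JL
  ρ := 1
  ρ_nonneg := by norm_num
  cube z := by
    ext j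
    simp only [Pi.smul_apply]
    fin_cases j <;> simp [JL_apply]
  herm_skew u v := by
    simp [herm, Fin.sum_univ_five, JL_apply]
    ring
  bil_skew u v := by
    simp [bil, Fin.sum_univ_five, JL_apply]
    ring

lemma gT_cay (v : E) : gT.cay 1 v = ![(8 * v 0 - v 1 + 4 * v 2) / 9, (-v 0 + 8 * v 1 + 4 * v 2) / 9,
    (-4 * v 0 - 4 * v 1 + 7 * v 2) / 9, v 3, v 4] := by
  have hk : gT.k 1 = 16 / 9 := by norm_num [Gen.k, gT]
  ext j
  simp only [Gen.cay, Pi.add_apply, Pi.smul_apply, hk]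
  fin_cases j <;> simp [gT, TL_apply] <;> ring

lemma gJ_cay (v : E) : gJ.cay 1 v = ![v 1, -v 0, v 3, -v 2, v 4] := by
  have hk : gJ.k 1 = 1 := by norm_num [Gen.k, gJ]
  ext j
  simp only [Gen.cay, Pi.add_apply, Pi.smul_apply, hk]
  fin_cases j <;> simp [gJ, JL_apply]

/-- The Hamiltonian lift. -/
noncomputable def lift : HamiltonianConeLift := gJ.compose (gJ.compose (gT.compose base))

/-- The linear part of the time-one map. -/
noncomputable def lin (v : E) : E :=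
  ![-(8 * v 0 - v 1 + 4 * v 2) / 9, -(-v 0 + 8 * v 1 + 4 * v 2) / 9,
    -(-4 * v 0 - 4 * v 1 + 7 * v 2) / 9, -v 3, v 4]

lemma compose_Ψ (g : Gen) (L : HamiltonianConeLift) (t : ℝ) (z : E) :
    (g.compose L).Ψ (t, z) = g.cay t (L.Ψ (t, z)) := rfl

lemma base_Ψ (t : ℝ) (z : E) : base.Ψ (t, z) = twist (3 / 2 * t) z := rfl

lemma lift_one (z : E) : lift.Ψ (1, z) = lin (twist (3 / 2) z) := by
  rw [lift, compose_Ψ, compose_Ψ, compose_Ψ, base_Ψ, mul_one, gT_cay, gJ_cay, gJ_cay, lin]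
  ext j
  fin_cases j <;> simp <;> ring

lemma cone_real {z : E} (hz : z ∈ unitCone) :
    (z 0).re ^ 2 + (z 1).re ^ 2 + (z 2).re ^ 2 + (z 3).re ^ 2 + (z 4).re ^ 2 = 1 / 2 ∧
    (z 0).im ^ 2 + (z 1).im ^ 2 + (z 2).im ^ 2 + (z 3).im ^ 2 + (z 4).im ^ 2 = 1 / 2 ∧
    (z 0).re * (z 0).im + (z 1).re * (z 1).im + (z 2).re * (z 2).im + (z 3).re * (z 3).im +
      (z 4).re * (z 4).im = 0 := by
  obtain ⟨h1, h2⟩ := hz
  have a := congrArg Complex.re h1
  have b := congrArg Complex.re h2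
  have c := congrArg Complex.im h2
  simp [herm, Fin.sum_univ_five, sq] at a b c
  refine ⟨?_, ?_, ?_⟩
  · linear_combination (a + b) / 2
  · linear_combination (a - b) / 2
  · linear_combination c / 2

lemma cone_of_real {z : E}
    (h1 : (z 0).re ^ 2 + (z 1).re ^ 2 + (z 2).re ^ 2 + (z 3).re ^ 2 + (z 4).re ^ 2 = 1 / 2)
    (h2 : (z 0).im ^ 2 + (z 1).im ^ 2 + (z 2).im ^ 2 + (z 3).im ^ 2 + (z 4).im ^ 2 = 1 / 2)
    (h3 : (z 0).re * (z 0).im + (z 1).re * (z 1).im + (z 2).re * (z 2).im + (z 3).re * (z 3).im +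
      (z 4).re * (z 4).im = 0) : z ∈ unitCone := by
  constructor
  · apply Complex.ext
    · simp [herm, Fin.sum_univ_five]
      linear_combination h1 + h2
    · simp [herm, Fin.sum_univ_five]
      ring
  · apply Complex.ext
    · simp [Fin.sum_univ_five, sq]
      linear_combination h1 - h2
    · simp [Fin.sum_univ_five, sq]
      linear_combination 2 * h3

lemma norm_eq_one_of_cone {z : E} {c : ℂ} (hz : z ∈ unitCone) (hc : c • z ∈ unitCone) :
    ‖c‖ = 1 := by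
  have h := hc.1
  rw [herm_smul_left, herm_smul_right, hz.1, mul_one, Complex.conj_mul'] at h
  have h' : ‖c‖ ^ 2 = 1 := by exact_mod_cast h
  have := norm_nonneg c
  nlinarith

lemma mu_cast (z : E) (j k : Fin 5) :
    (2 * Complex.I) * (mu z j k : ℂ) =
      starRingEnd ℂ (z j) * z k - z j * starRingEnd ℂ (z k) := by
  apply Complex.ext
  · simp [mu]
  · simp [mu]
    ring

/-- The Pluecker coordinates determine the line. -/
lemma eq_smul_of_mu {z z' : E} (hz : z ∈ unitCone) (hz' : z' ∈ unitCone)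
    (h : ∀ j k, mu z' j k = mu z j k) : z' = herm z z' • z := by
  rw [mem_cone_iff] at hz hz'
  have key : ∀ j, z' j = herm z z' * z j - bil z z' * starRingEnd ℂ (z j) := by
    intro j
    have e : ∀ k, starRingEnd ℂ (z' j) * z' k - z' j * starRingEnd ℂ (z' k) =
        starRingEnd ℂ (z j) * z k - z j * starRingEnd ℂ (z k) := fun k => by
      rw [← mu_cast, ← mu_cast, h]
    have h1 := hz'.1
    have h2 := hz'.2
    simp only [herm, bil, Fin.sum_univ_five] at h1 h2 ⊢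
    linear_combination (-z' j) * h1 + (starRingEnd ℂ (z' j)) * h2 - z' 0 * e 0 - z' 1 * e 1 -
      z' 2 * e 2 - z' 3 * e 3 - z' 4 * e 4
  have hb : bil z z' = 0 := by
    have h1 := hz.1
    have h2 := hz.2
    have : bil z z' = herm z z' * bil z z - bil z z' * herm z z := by
      conv_lhs => rw [bil, Fin.sum_univ_five, key 0, key 1, key 2, key 3, key 4]
      generalize herm z z' = a
      generalize bil z z' = b
      simp only [herm, bil, Fin.sum_univ_five]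
      ring
    rw [h1, h2] at this
    linear_combination this / 2
  ext j
  rw [key j, hb]
  simp

lemma span_eq_of_mu {z z' : E} (hz : z ∈ unitCone) (hz' : z' ∈ unitCone)
    (h : ∀ j k, mu z' j k = mu z j k) : Submodule.span ℂ {z'} = Submodule.span ℂ {z} := by
  apply le_antisymm
  · rw [Submodule.span_singleton_le_iff_mem, Submodule.mem_span_singleton]
    exact ⟨_, (eq_smul_of_mu hz hz' h).symm⟩
  · rw [Submodule.span_singleton_le_iff_mem, Submodule.mem_span_singleton]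
    exact ⟨_, (eq_smul_of_mu hz' hz fun j k => (h j k).symm).symm⟩

lemma mu_eq_of_span {z z' : E} (hz : z ∈ unitCone) (hz' : z' ∈ unitCone)
    (h : z' ∈ Submodule.span ℂ {z}) (j k : Fin 5) : mu z' j k = mu z j k := by
  obtain ⟨c, rfl⟩ := Submodule.mem_span_singleton.1 h
  exact mu_smul c (norm_eq_one_of_cone hz hz') z j k

lemma mu_ext {z z' : E} (h01 : mu z' 0 1 = mu z 0 1) (h02 : mu z' 0 2 = mu z 0 2)
    (h03 : mu z' 0 3 = mu z 0 3) (h12 : mu z' 1 2 = mu z 1 2) (h23 : mu z' 2 3 = mu z 2 3)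
    (h31 : mu z' 3 1 = mu z 3 1) (h4 : z 4 = 0) (h4' : z' 4 = 0) (j k : Fin 5) :
    mu z' j k = mu z j k := by
  simp only [mu] at h01 h02 h03 h12 h23 h31
  fin_cases j <;> fin_cases k <;> simp [mu, h4, h4'] <;> linarith

/-- The Cayley relations for the twist. -/
lemma twist_rel (z : E) :
    twist (3 / 2) z 0 = z 0 ∧
    twist (3 / 2) z 1 - z 1 = 3 / 2 * (mu z 3 1 * (twist (3 / 2) z 3 + z 3) -
      mu z 1 2 * (twist (3 / 2) z 2 + z 2)) ∧
    twist (3 / 2) z 2 - z 2 = 3 / 2 * (mu z 1 2 * (twist (3 / 2) z 1 + z 1) -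
      mu z 2 3 * (twist (3 / 2) z 3 + z 3)) ∧
    twist (3 / 2) z 3 - z 3 = 3 / 2 * (mu z 2 3 * (twist (3 / 2) z 2 + z 2) -
      mu z 3 1 * (twist (3 / 2) z 1 + z 1)) ∧
    twist (3 / 2) z 4 = z 4 := by
  have h := (gz z).cay_sub (3 / 2) z
  change twist (3 / 2) z - z = (3 / 2 : ℝ) • (gz z).B (twist (3 / 2) z + z) at h
  rw [gz_B] at h
  refine ⟨?_, ?_, ?_, ?_, ?_⟩
  · simpa [sub_eq_zero] using congrFun h 0
  · simpa using congrFun h 1
  · simpa using congrFun h 2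
  · simpa using congrFun h 3
  · simpa [sub_eq_zero] using congrFun h 4

lemma twist_rel_mu (z : E) :
    mu (twist (3 / 2) z) 0 1 - mu z 0 1 = 3 / 2 * (mu z 3 1 * (mu (twist (3 / 2) z) 0 3 + mu z 0 3) -
      mu z 1 2 * (mu (twist (3 / 2) z) 0 2 + mu z 0 2)) ∧
    mu (twist (3 / 2) z) 0 2 - mu z 0 2 = 3 / 2 * (mu z 1 2 * (mu (twist (3 / 2) z) 0 1 + mu z 0 1) -
      mu z 2 3 * (mu (twist (3 / 2) z) 0 3 + mu z 0 3)) ∧
    mu (twist (3 / 2) z) 0 3 - mu z 0 3 = 3 / 2 * (mu z 2 3 * (mu (twist (3 / 2) z) 0 2 + mu z 0 2) -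
      mu z 3 1 * (mu (twist (3 / 2) z) 0 1 + mu z 0 1)) := by
  obtain ⟨h0, h1, h2, h3, -⟩ := twist_rel z
  generalize twist (3 / 2) z = q at *
  generalize mu z 3 1 = b at *
  generalize mu z 1 2 = c at *
  generalize mu z 2 3 = a at *
  have h1r := congrArg Complex.re h1
  have h1i := congrArg Complex.im h1
  have h2r := congrArg Complex.re h2
  have h2i := congrArg Complex.im h2
  have h3r := congrArg Complex.re h3
  have h3i := congrArg Complex.im h3
  simp at h1r h1i h2r h2i h3r h3i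
  simp only [mu, h0]
  refine ⟨?_, ?_, ?_⟩
  · linear_combination (z 0).re * h1i - (z 0).im * h1r
  · linear_combination (z 0).re * h2i - (z 0).im * h2r
  · linear_combination (z 0).re * h3i - (z 0).im * h3r

lemma mu_lin (v : E) :
    mu (lin v) 0 1 = (-4 * mu v 1 2 + 4 * mu v 0 2 + 7 * mu v 0 1) / 9 ∧
    mu (lin v) 0 2 = (mu v 1 2 + 8 * mu v 0 2 - 4 * mu v 0 1) / 9 ∧
    mu (lin v) 1 2 = (8 * mu v 1 2 + mu v 0 2 + 4 * mu v 0 1) / 9 ∧
    mu (lin v) 0 3 = (8 * mu v 0 3 + mu v 3 1 + 4 * mu v 2 3) / 9 ∧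
    mu (lin v) 3 1 = (mu v 0 3 + 8 * mu v 3 1 - 4 * mu v 2 3) / 9 ∧
    mu (lin v) 2 3 = (-4 * mu v 0 3 + 4 * mu v 3 1 + 7 * mu v 2 3) / 9 := by
  refine ⟨?_, ?_, ?_, ?_, ?_, ?_⟩ <;> simp [mu, lin] <;> ring

lemma fixed_four {z : E} (hz : z ∈ unitCone) {c : ℂ} (h : lin (twist (3 / 2) z) = c • z) :
    z 4 = 0 := by
  by_contra h4
  obtain ⟨h0, h1, h2, h3, h5⟩ := twist_rel z
  generalize twist (3 / 2) z = q at *
  have hc : c = 1 := by
    have := congrFun h 4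
    simp [lin, h5] at this
    exact mul_right_cancel₀ h4 (by rw [one_mul]; exact this.symm)
  subst hc
  have e0 : -(8 * q 0 - q 1 + 4 * q 2) / 9 = z 0 := by simpa [lin] using congrFun h 0
  have e1 : -(-q 0 + 8 * q 1 + 4 * q 2) / 9 = z 1 := by simpa [lin] using congrFun h 1
  have e2 : -(-4 * q 0 - 4 * q 1 + 7 * q 2) / 9 = z 2 := by simpa [lin] using congrFun h 2
  have e3 : -q 3 = z 3 := by simpa [lin] using congrFun h 3
  obtain ⟨c1, c2, c3⟩ := cone_real hz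
  have hw : 0 < 1 + 3 / 8 * mu z 1 2 := by
    unfold mu
    nlinarith [sq_nonneg ((z 1).re + (z 2).im), sq_nonneg ((z 1).im - (z 2).re),
      sq_nonneg (z 0).re, sq_nonneg (z 0).im, sq_nonneg (z 3).re, sq_nonneg (z 3).im,
      sq_nonneg (z 4).re, sq_nonneg (z 4).im]
  have hw' : (1 + 3 / 8 * (mu z 1 2 : ℂ)) ≠ 0 := by
    have : (((1 + 3 / 8 * mu z 1 2 : ℝ)) : ℂ) ≠ 0 := Complex.ofReal_ne_zero.2 hw.ne'
    simpa using this
  have s3 : q 3 + z 3 = 0 := by linear_combination -e3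
  have s0 : q 0 + z 0 = -(q 2 - z 2) / 4 := by linear_combination -e0 + e2 / 4
  have s1 : q 1 + z 1 = -(q 2 - z 2) / 4 := by linear_combination -e1 + e2 / 4
  have s2 : q 2 + z 2 = (q 0 - z 0 + (q 1 - z 1)) / 4 := by
    linear_combination -e2 - (e0 + e1) / 4
  have t1 : q 1 + z 1 = 0 := by
    refine (mul_eq_zero.1 (?_ : (1 + 3 / 8 * (mu z 1 2 : ℂ)) * (q 1 + z 1) = 0)).resolve_left hw'
    linear_combination s1 - h2 / 4 + (3 / 8 * mu z 2 3 : ℂ) * s3
  have t2 : q 2 + z 2 = 0 := by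
    refine (mul_eq_zero.1 (?_ : (1 + 3 / 8 * (mu z 1 2 : ℂ)) * (q 2 + z 2) = 0)).resolve_left hw'
    linear_combination s2 + h0 / 4 + h1 / 4 + (3 / 8 * mu z 3 1 : ℂ) * s3
  rw [s3, t2] at h1
  rw [t1, s3] at h2
  rw [t2, t1] at h3
  have z0 : z 0 = 0 := by linear_combination s0 / 2 - h0 / 2 - h2 / 8
  have z1 : z 1 = 0 := by linear_combination t1 / 2 - h1 / 2
  have z2 : z 2 = 0 := by linear_combination t2 / 2 - h2 / 2
  have z3 : z 3 = 0 := by linear_combination s3 / 2 - h3 / 2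
  have := hz.2
  simp [Fin.sum_univ_five, z0, z1, z2, z3] at this
  exact h4 this

/-- Solving the fixed point equations. -/
lemma solve_real {m1 m2 m3 w1 w2 w3 n1 n2 n3 : ℝ}
    (r1 : n1 - m1 = 3 / 2 * (w2 * (n3 + m3) - w3 * (n2 + m2)))
    (a01 : m1 = (-4 * w3 + 4 * n2 + 7 * n1) / 9)
    (a02 : m2 = (w3 + 8 * n2 - 4 * n1) / 9)
    (a12 : w3 = (8 * w3 + n2 + 4 * n1) / 9)
    (a03 : m3 = (8 * n3 + w2 + 4 * w1) / 9)
    (a31 : w2 = (n3 + 8 * w2 - 4 * w1) / 9)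
    (a23 : w1 = (-4 * n3 + 4 * w2 + 7 * w1) / 9)
    (pl : m1 * w1 + m2 * w2 + m3 * w3 = 0)
    (nm : m1 ^ 2 + m2 ^ 2 + m3 ^ 2 + w1 ^ 2 + w2 ^ 2 + w3 ^ 2 = 1 / 4) :
    m3 = 0 ∧ w1 = 0 ∧ w2 = 0 ∧
      ((m1 = -1 / 6 ∧ m2 = -1 / 3 ∧ w3 = 1 / 3) ∨
       (m1 = 3 / 34 ∧ m2 = (3 + √26) / 17 ∧ w3 = (-3 + √26) / 17) ∨
       (m1 = 3 / 34 ∧ m2 = (3 - √26) / 17 ∧ w3 = (-3 - √26) / 17)) := by
  have b1 : w1 = 0 := by linarith
  have b2 : n3 = w2 := by linarith
  have b3 : m3 = w2 := by linarith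
  have b4 : n1 = -m1 := by linarith
  have b5 : n2 = m2 := by linarith
  have b6 : w3 = m2 - 4 * m1 := by linarith
  subst b1 b2 b3 b4 b5
  have r : m1 = 3 / 2 * (w3 * n2 - m3 ^ 2) := by linear_combination (-1 / 2) * r1
  have hw2 : m3 = 0 := by
    by_contra hne
    have c1 : n2 = -w3 := by
      have : m3 * (n2 + w3) = 0 := by linear_combination pl
      have := (mul_eq_zero.1 this).resolve_left hne
      linarith
    subst c1
    have c2 : m1 = -w3 / 2 := by linarith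
    subst c2
    have c3 : w3 = 3 * (w3 ^ 2 + m3 ^ 2) := by linear_combination (-2) * r
    have c4 : (3 * w3 - 1) * (w3 + 3) = 0 := by linear_combination 12 * nm + 8 * c3
    have hp : 0 < m3 ^ 2 := by positivity
    rcases mul_eq_zero.1 c4 with c5 | c5
    · have : w3 = 1 / 3 := by linarith
      rw [this] at c3
      linarith
    · nlinarith [sq_nonneg w3]
  subst hw2
  refine ⟨rfl, rfl, rfl, ?_⟩
  have c4 : (6 * m1 + 1) * (34 * m1 - 3) = 0 := by
    linear_combination 12 * nm + 16 * r + 12 * (n2 - w3 + 4 * m1) * b6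
  rcases mul_eq_zero.1 c4 with c5 | c5
  · left
    have d1 : m1 = -1 / 6 := by linarith
    subst d1
    have d2 : (3 * n2 + 1) ^ 2 = 0 := by linear_combination (-6) * r - 9 * n2 * b6
    have d3 : n2 = -1 / 3 := by
      have := pow_eq_zero_iff (two_ne_zero) |>.1 d2
      linarith
    exact ⟨rfl, d3, by linarith⟩
  · right
    have d1 : m1 = 3 / 34 := by linarith
    subst d1
    have hs : √26 ^ 2 = 26 := Real.sq_sqrt (by norm_num)
    have d2 : (17 * n2 - 3 - √26) * (17 * n2 - 3 + √26) = 0 := by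
      linear_combination (-578 / 3) * r - 289 * n2 * b6 - hs
    rcases mul_eq_zero.1 d2 with d3 | d3
    · left
      exact ⟨rfl, by linarith, by linarith⟩
    · right
      exact ⟨rfl, by linarith, by linarith⟩

lemma lin_twist_mem {z : E} (hz : z ∈ unitCone) : lin (twist (3 / 2) z) ∈ unitCone := by
  rw [← lift_one]
  exact lift.mapsTo_cone 1 z hz

lemma fixed_mu {z : E} (hz : z ∈ unitCone) (h : lin (twist (3 / 2) z) ∈ Submodule.span ℂ {z}) :
    z 4 = 0 ∧ mu z 0 3 = 0 ∧ mu z 2 3 = 0 ∧ mu z 3 1 = 0 ∧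
      ((mu z 0 1 = -1 / 6 ∧ mu z 0 2 = -1 / 3 ∧ mu z 1 2 = 1 / 3) ∨
       (mu z 0 1 = 3 / 34 ∧ mu z 0 2 = (3 + √26) / 17 ∧ mu z 1 2 = (-3 + √26) / 17) ∨
       (mu z 0 1 = 3 / 34 ∧ mu z 0 2 = (3 - √26) / 17 ∧ mu z 1 2 = (-3 - √26) / 17)) := by
  have h4 : z 4 = 0 := by
    obtain ⟨c, hc⟩ := Submodule.mem_span_singleton.1 h
    exact fixed_four hz hc.symm
  refine ⟨h4, ?_⟩
  have hm := mu_eq_of_span hz (lin_twist_mem hz) h
  obtain ⟨a01, a02, a12, a03, a31, a23⟩ := mu_lin (twist (3 / 2) z)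
  rw [hm, mu_twist_12] at a01 a02 a12
  rw [hm, mu_twist_31, mu_twist_23] at a03 a31 a23
  obtain ⟨r1, -, -⟩ := twist_rel_mu z
  obtain ⟨c1, c2, c3⟩ := cone_real hz
  simp only [h4, Complex.zero_re, Complex.zero_im] at c1 c2 c3
  refine solve_real r1 a01 a02 a12 a03 a31 a23 ?_ ?_
  · simp only [mu]
    ring
  · simp only [mu]
    linear_combination ((z 0).im ^ 2 + (z 1).im ^ 2 + (z 2).im ^ 2 + (z 3).im ^ 2) * c1 +
      (1 / 2) * c2 - ((z 0).re * (z 0).im + (z 1).re * (z 1).im + (z 2).re * (z 2).im +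
        (z 3).re * (z 3).im) * c3

lemma fixed_of_mu {z : E} (hz : z ∈ unitCone) (h3 : z 3 = 0) (h4 : z 4 = 0)
    (e1 : mu z 0 1 = 3 / 2 * mu z 1 2 * mu z 0 2) (e2 : mu z 1 2 = mu z 0 2 - 4 * mu z 0 1) :
    lin (twist (3 / 2) z) ∈ Submodule.span ℂ {z} := by
  have z03 : mu z 0 3 = 0 := by simp [mu, h3]
  have z23 : mu z 2 3 = 0 := by simp [mu, h3]
  have z31 : mu z 3 1 = 0 := by simp [mu, h3]
  obtain ⟨r1, r2, r3⟩ := twist_rel_mu z
  obtain ⟨a01, a02, a12, a03, a31, a23⟩ := mu_lin (twist (3 / 2) z)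
  rw [mu_twist_12] at a01 a02 a12
  rw [mu_twist_31, mu_twist_23] at a03 a31 a23
  rw [z23, z31] at a03 a31 a23 r3
  rw [z31] at r1
  rw [z23] at r2
  have n1 : mu (twist (3 / 2) z) 0 1 = -mu z 0 1 := by
    have hp : 0 < 1 + 9 / 4 * mu z 1 2 ^ 2 := by positivity
    have : (1 + 9 / 4 * mu z 1 2 ^ 2) * (mu (twist (3 / 2) z) 0 1 + mu z 0 1) = 0 := by
      linear_combination r1 + 2 * e1 - 3 / 2 * mu z 1 2 * r2
    have := (mul_eq_zero.1 this).resolve_left hp.ne'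
    linarith
  have n2 : mu (twist (3 / 2) z) 0 2 = mu z 0 2 := by
    rw [n1] at r2
    linarith
  have n3 : mu (twist (3 / 2) z) 0 3 = 0 := by linarith
  rw [← span_eq_of_mu hz (lin_twist_mem hz)]
  · exact Submodule.mem_span_singleton_self _
  · have h5 := (twist_rel z).2.2.2.2
    apply mu_ext <;> first | linarith | exact h4 | simp [lin, h5, h4]

lemma exists_cone {m1 m2 w3 : ℝ} (hn : m1 ^ 2 + m2 ^ 2 + w3 ^ 2 = 1 / 4)
    (hp : 0 < m2 ^ 2 + w3 ^ 2) :
    ∃ z ∈ unitCone, z 3 = 0 ∧ z 4 = 0 ∧ mu z 0 1 = m1 ∧ mu z 0 2 = m2 ∧ mu z 1 2 = w3 := by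
  obtain ⟨κ, hκ⟩ : ∃ κ : ℝ, κ ^ 2 * (2 * (m2 ^ 2 + w3 ^ 2)) = 1 := by
    refine ⟨√(1 / (2 * (m2 ^ 2 + w3 ^ 2))), ?_⟩
    rw [Real.sq_sqrt (by positivity)]
    field_simp
  refine ⟨![⟨-κ * m2, 2 * κ * w3 * m1⟩, ⟨-κ * w3, -2 * κ * m2 * m1⟩,
    ⟨0, -2 * κ * (m2 ^ 2 + w3 ^ 2)⟩, 0, 0], ?_, rfl, rfl, ?_, ?_, ?_⟩
  · apply cone_of_real
    · simp
      linear_combination hκ / 2
    · simp
      linear_combination 2 * (m1 ^ 2 + m2 ^ 2 + w3 ^ 2) * hκ + 2 * hn
    · simp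
      ring
  · simp [mu]
    linear_combination m1 * hκ
  · simp [mu]
    linear_combination m2 * hκ
  · simp [mu]
    linear_combination w3 * hκ

lemma ncard_fixed : (fixedLines lift).ncard = 3 := by
  have hs : √26 ^ 2 = 26 := Real.sq_sqrt (by norm_num)
  have hs0 : 0 < √26 := Real.sqrt_pos.2 (by norm_num)
  obtain ⟨z1, hz1, a3, a4, a01, a02, a12⟩ :=
    exists_cone (m1 := -1 / 6) (m2 := -1 / 3) (w3 := 1 / 3) (by norm_num) (by norm_num)
  obtain ⟨z2, hz2, b3, b4, b01, b02, b12⟩ :=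
    exists_cone (m1 := 3 / 34) (m2 := (3 + √26) / 17) (w3 := (-3 + √26) / 17)
      (by linear_combination (2 / 289) * hs) (by nlinarith)
  obtain ⟨z3, hz3, c3, c4, c01, c02, c12⟩ :=
    exists_cone (m1 := 3 / 34) (m2 := (3 - √26) / 17) (w3 := (-3 - √26) / 17)
      (by linear_combination (2 / 289) * hs) (by nlinarith)
  have hne : ∀ {u v : E}, u ∈ unitCone → v ∈ unitCone → ∀ j k, mu u j k ≠ mu v j k →
      Submodule.span ℂ {u} ≠ Submodule.span ℂ {v} := by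
    intro u v hu hv j k hjk heq
    exact hjk (mu_eq_of_span hv hu (heq ▸ Submodule.mem_span_singleton_self u) j k)
  rw [Set.ncard_eq_three]
  refine ⟨Submodule.span ℂ {z1}, Submodule.span ℂ {z2}, Submodule.span ℂ {z3},
    hne hz1 hz2 0 1 (by rw [a01, b01]; norm_num), hne hz1 hz3 0 1 (by rw [a01, c01]; norm_num),
    hne hz2 hz3 0 2 (by rw [b02, c02]; intro h; linarith), ?_⟩
  have hz : ∀ {u : E}, u 3 = 0 → mu u 0 3 = 0 ∧ mu u 2 3 = 0 ∧ mu u 3 1 = 0 := by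
    intro u h
    simp [mu, h]
  ext ℓ
  simp only [fixedLines, Set.mem_ofPred_eq, Set.mem_insert_iff, Set.mem_singleton_iff, lift_one]
  constructor
  · rintro ⟨z, hzc, rfl, h⟩
    obtain ⟨h4, h03, h23, h31, h | h | h⟩ := fixed_mu hzc h
    · left
      obtain ⟨x1, x2, x3⟩ := hz a3
      exact span_eq_of_mu hz1 hzc (mu_ext (by rw [h.1, a01]) (by rw [h.2.1, a02])
        (by rw [h03, x1]) (by rw [h.2.2, a12]) (by rw [h23, x2]) (by rw [h31, x3]) a4 h4)
    · right; left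
      obtain ⟨x1, x2, x3⟩ := hz b3
      exact span_eq_of_mu hz2 hzc (mu_ext (by rw [h.1, b01]) (by rw [h.2.1, b02])
        (by rw [h03, x1]) (by rw [h.2.2, b12]) (by rw [h23, x2]) (by rw [h31, x3]) b4 h4)
    · right; right
      obtain ⟨x1, x2, x3⟩ := hz c3
      exact span_eq_of_mu hz3 hzc (mu_ext (by rw [h.1, c01]) (by rw [h.2.1, c02])
        (by rw [h03, x1]) (by rw [h.2.2, c12]) (by rw [h23, x2]) (by rw [h31, x3]) c4 h4)
  · rintro (rfl | rfl | rfl)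
    · exact ⟨z1, hz1, rfl, fixed_of_mu hz1 a3 a4 (by rw [a01, a02, a12]; norm_num)
        (by rw [a01, a02, a12]; norm_num)⟩
    · exact ⟨z2, hz2, rfl, fixed_of_mu hz2 b3 b4
        (by rw [b01, b02, b12]; linear_combination (-3 / 578) * hs)
        (by rw [b01, b02, b12]; ring)⟩
    · exact ⟨z3, hz3, rfl, fixed_of_mu hz3 c3 c4
        (by rw [c01, c02, c12]; linear_combination (-3 / 578) * hs)
        (by rw [c01, c02, c12]; ring)⟩

/-- The degenerate fixed point. -/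
noncomputable def zs : E := ![⟨1 / 6, 1 / 2⟩, ⟨1 / 6, -1 / 2⟩, ⟨2 / 3, 0⟩, 0, 0]

noncomputable def e3 : E := ![0, 0, 0, 1, 0]

lemma zs_mem : zs ∈ unitCone := by
  apply cone_of_real <;> simp [zs] <;> norm_num

noncomputable def uu (τ : ℝ) : ℝ := 2 / (5 / 4 + 9 / 16 * τ ^ 2)

lemma hasDerivAt_uu : HasDerivAt uu 0 0 := by
  have h1 : HasDerivAt (fun τ : ℝ => 5 / 4 + 9 / 16 * τ ^ 2) (9 / 16 * (2 * 0)) 0 := by
    simpa using ((hasDerivAt_pow 2 (0 : ℝ)).const_mul (9 / 16)).const_add (5 / 4)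
  have h2 := (hasDerivAt_const (0 : ℝ) (2 : ℝ)).div h1 (by norm_num)
  refine HasDerivAt.congr_deriv h2 ?_
  simp

lemma line_formula (τ : ℝ) : twist (3 / 2) (zs + τ • e3) =
    ![⟨1 / 6, 1 / 2⟩, ⟨-17 / 6, 1 / 2⟩, ⟨-2 / 3, 0⟩, 0, 0] +
      uu τ • ![0, ⟨3 / 2, -1 / 2⟩, ⟨3 / 4, -1 / 4⟩, 0, 0] + τ • ![0, 0, 0, -1, 0] +
      (τ * uu τ) • ![0, 0, 0, ⟨9 / 8, -3 / 8⟩, 0] := by
  have m23 : mu (zs + τ • e3) 2 3 = 0 := by simp [mu, zs, e3]
  have m31 : mu (zs + τ • e3) 3 1 = -τ / 2 := by simp [mu, zs, e3]; ring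
  have m12 : mu (zs + τ • e3) 1 2 = 1 / 3 := by simp [mu, zs, e3]; ring
  have hk : (gz (zs + τ • e3)).k (3 / 2) = uu τ := by
    rw [Gen.k, gz_ρ, rr, m23, m31, m12, uu]
    congr 1
    ring
  have hu : uu τ * (5 / 4 + 9 / 16 * τ ^ 2) = 2 := by
    unfold uu
    field_simp
  rw [twist_eq, m23, m31, m12, hk]
  generalize uu τ = u at *
  ext j
  simp only [Pi.add_apply, Pi.smul_apply]
  fin_cases j <;> apply Complex.ext <;> simp [zs, e3]
  all_goals first | ring1 | linear_combination (-4 / 3) * hu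

lemma degenerate : HasDegenerateFixedPoint lift := by
  have hne : ((⊤ : ℕ∞) : WithTop ℕ∞) ≠ 0 := by simp
  refine ⟨zs, zs_mem, ⟨-4 / 5, 3 / 5⟩, ?_, e3, ?_, ?_, 0, ?_⟩
  · have h := line_formula 0
    have hu : uu 0 = 8 / 5 := by norm_num [uu]
    rw [zero_smul, add_zero, hu] at h
    rw [lift_one, h]
    ext j
    simp only [Pi.smul_apply]
    fin_cases j <;> apply Complex.ext <;> simp [lin, zs] <;> norm_num
  · simp [coneTangent, herm, Fin.sum_univ_five, zs, e3]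
  · intro r h
    have := congrFun h 3
    simp [zs, e3] at this
  · have hd : DifferentiableAt ℝ (fun x : E => lift.Ψ (1, x)) zs :=
      ((lift.smooth_Ψ.comp (contDiff_const.prodMk contDiff_id)).differentiable hne) zs
    refine fderiv_apply_eq hd ?_
    have hl : ∀ {γ : ℝ → E} {γ' : E}, HasDerivAt γ γ' 0 →
        HasDerivAt (fun τ => lin (γ τ)) (lin γ') 0 := by
      intro γ γ' h
      have e : ∀ v, lin v = gJ.cay 1 (gJ.cay 1 (gT.cay 1 v)) := by
        intro v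
        rw [gT_cay, gJ_cay, gJ_cay, lin]
        ext j
        fin_cases j <;> simp <;> ring
      simp only [e]
      exact gJ.hasDerivAt_cay_const 1 (gJ.hasDerivAt_cay_const 1 (gT.hasDerivAt_cay_const 1 h))
    simp only [lift_one, line_formula]
    have h1 := ((((hasDerivAt_const (0 : ℝ)
      (![⟨1 / 6, 1 / 2⟩, ⟨-17 / 6, 1 / 2⟩, ⟨-2 / 3, 0⟩, 0, 0] : E)).add
      (hasDerivAt_uu.smul_const (![0, ⟨3 / 2, -1 / 2⟩, ⟨3 / 4, -1 / 4⟩, 0, 0] : E))).add
      ((hasDerivAt_id' (0 : ℝ)).smul_const (![0, 0, 0, -1, 0] : E))).add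
      (((hasDerivAt_id' (0 : ℝ)).mul hasDerivAt_uu).smul_const
        (![0, 0, 0, ⟨9 / 8, -3 / 8⟩, 0] : E)))
    refine HasDerivAt.congr_deriv (hl h1) ?_
    have hu : uu 0 = 8 / 5 := by norm_num [uu]
    rw [hu]
    ext j
    simp only [Pi.smul_apply, Pi.add_apply]
    fin_cases j <;> apply Complex.ext <;> simp [lin, zs, e3] <;> norm_num

end Crest.Agent.R205
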