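import Crest.Agent.R205.Basic

/-! The twist isotopy generated by a function of the norm of the `so(3)` moment map. -/

set_option autoImplicit false

namespace Crest.Agent.R205

open Crest.GeometryTopology.Quadric

/-- Pluecker coordinates of the real plane spanned by the real and imaginary parts. -/
def mu (z : E) (j k : Fin 5) : ℝ := (z j).re * (z k).im - (z j).im * (z k).re

/-- Cross product with `(a, b, c)` on the coordinates `1, 2, 3`. -/
noncomputable def crossL (a b c : ℝ) : E →ₗ[ℂ] E where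
  toFun v := ![0, b * v 3 - c * v 2, c * v 1 - a * v 3, a * v 2 - b * v 1, 0]
  map_add' u v := by
    ext j
    fin_cases j <;> simp <;> ring
  map_smul' r v := by
    ext j
    fin_cases j <;> simp <;> ring

lemma crossL_apply (a b c : ℝ) (v : E) :
    crossL a b c v = ![0, b * v 3 - c * v 2, c * v 1 - a * v 3, a * v 2 - b * v 1, 0] := rfl

noncomputable def crossGen (a b c : ℝ) : Gen where
  B := LinearMap.toContinuousLinearMap (crossL a b c)
  ρ := a ^ 2 + b ^ 2 + c ^ 2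
  ρ_nonneg := by positivity
  cube z := by
    ext j
    fin_cases j <;> simp [crossL_apply] <;> ring
  herm_skew u v := by
    simp [herm, Fin.sum_univ_five, crossL_apply]
    ring
  bil_skew u v := by
    simp [bil, Fin.sum_univ_five, crossL_apply]
    ring

lemma crossGen_B (a b c : ℝ) (v : E) :
    (crossGen a b c).B v = ![0, b * v 3 - c * v 2, c * v 1 - a * v 3, a * v 2 - b * v 1, 0] := rfl

/-- The generator attached to a point. -/
noncomputable def gz (z : E) : Gen := crossGen (mu z 2 3) (mu z 3 1) (mu z 1 2)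

/-- Squared norm of the moment map. -/
def rr (z : E) : ℝ := mu z 2 3 ^ 2 + mu z 3 1 ^ 2 + mu z 1 2 ^ 2

lemma gz_ρ (z : E) : (gz z).ρ = rr z := rfl

lemma rr_nonneg (z : E) : 0 ≤ rr z := (gz z).ρ_nonneg

noncomputable def twist (τ : ℝ) (z : E) : E := (gz z).cay τ z

lemma gz_B (z v : E) : (gz z).B v = ![0, mu z 3 1 * v 3 - mu z 1 2 * v 2,
    mu z 1 2 * v 1 - mu z 2 3 * v 3, mu z 2 3 * v 2 - mu z 3 1 * v 1, 0] := rfl

lemma w_dot (z : E) : (mu z 2 3 : ℂ) * z 1 + mu z 3 1 * z 2 + mu z 1 2 * z 3 = 0 := by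
  apply Complex.ext <;> simp [mu] <;> ring

lemma twist_eq (τ : ℝ) (z : E) : twist τ z =
    ![z 0,
      ((gz z).k τ - 1 : ℝ) * z 1 + ((gz z).k τ * τ : ℝ) * (mu z 3 1 * z 3 - mu z 1 2 * z 2),
      ((gz z).k τ - 1 : ℝ) * z 2 + ((gz z).k τ * τ : ℝ) * (mu z 1 2 * z 1 - mu z 2 3 * z 3),
      ((gz z).k τ - 1 : ℝ) * z 3 + ((gz z).k τ * τ : ℝ) * (mu z 2 3 * z 2 - mu z 3 1 * z 1),
      z 4] := by
  have hk : (((gz z).k τ : ℝ) : ℂ) * (1 + (τ : ℂ) ^ 2 *
      ((mu z 2 3 : ℂ) ^ 2 + (mu z 3 1 : ℂ) ^ 2 + (mu z 1 2 : ℂ) ^ 2)) = 2 := by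
    have := (gz z).k_mul τ
    rw [gz_ρ, rr] at this
    exact_mod_cast this
  have hw := w_dot z
  ext j
  simp only [twist, Gen.cay, Pi.add_apply, Pi.smul_apply]
  fin_cases j <;> simp [gz_B]
  · linear_combination (-z 1) * hk + ((gz z).k τ * τ ^ 2 * mu z 2 3 : ℂ) * hw
  · linear_combination (-z 2) * hk + ((gz z).k τ * τ ^ 2 * mu z 3 1 : ℂ) * hw
  · linear_combination (-z 3) * hk + ((gz z).k τ * τ ^ 2 * mu z 1 2 : ℂ) * hw

lemma k_circle (g : Gen) (τ : ℝ) : (g.k τ - 1) ^ 2 + (g.k τ * τ) ^ 2 * g.ρ = 1 := by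
  linear_combination (g.k τ) * g.k_mul τ

lemma mu_twist_23 (τ : ℝ) (z : E) : mu (twist τ z) 2 3 = mu z 2 3 := by
  have h := k_circle (gz z) τ
  rw [gz_ρ, rr] at h
  rw [twist_eq]
  generalize (gz z).k τ - 1 = α at h ⊢
  generalize (gz z).k τ * τ = β at h ⊢
  simp only [mu] at h
  simp [mu]
  linear_combination ((z 2).re * (z 3).im - (z 2).im * (z 3).re) * h

lemma mu_twist_31 (τ : ℝ) (z : E) : mu (twist τ z) 3 1 = mu z 3 1 := by
  have h := k_circle (gz z) τ
  rw [gz_ρ, rr] at h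
  rw [twist_eq]
  generalize (gz z).k τ - 1 = α at h ⊢
  generalize (gz z).k τ * τ = β at h ⊢
  simp only [mu] at h
  simp [mu]
  linear_combination ((z 3).re * (z 1).im - (z 3).im * (z 1).re) * h

lemma mu_twist_12 (τ : ℝ) (z : E) : mu (twist τ z) 1 2 = mu z 1 2 := by
  have h := k_circle (gz z) τ
  rw [gz_ρ, rr] at h
  rw [twist_eq]
  generalize (gz z).k τ - 1 = α at h ⊢
  generalize (gz z).k τ * τ = β at h ⊢
  simp only [mu] at h
  simp [mu]
  linear_combination ((z 1).re * (z 2).im - (z 1).im * (z 2).re) * h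

lemma gz_twist (τ : ℝ) (z : E) : gz (twist τ z) = gz z := by
  unfold gz
  rw [mu_twist_23, mu_twist_31, mu_twist_12]

lemma mu_smul (c : ℂ) (hc : ‖c‖ = 1) (z : E) (j k : Fin 5) : mu (c • z) j k = mu z j k := by
  have h : c.re ^ 2 + c.im ^ 2 = 1 := by
    have := Complex.sq_norm c
    rw [hc, Complex.normSq_apply] at this
    linarith
  simp [mu]
  linear_combination ((z j).re * (z k).im - (z j).im * (z k).re) * h

lemma gz_smul (c : ℂ) (hc : ‖c‖ = 1) (z : E) : gz (c • z) = gz z := by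
  unfold gz
  simp only [mu_smul c hc]

lemma contDiff_mu {X : Type*} [NormedAddCommGroup X] [NormedSpace ℝ X]
    {γ : X → E} (hγ : ContDiff ℝ (⊤ : ℕ∞) γ) (j k : Fin 5) :
    ContDiff ℝ (⊤ : ℕ∞) (fun x => mu (γ x) j k) := by
  have hre : ∀ i, ContDiff ℝ (⊤ : ℕ∞) (fun x => (γ x i).re) := fun i =>
    Complex.reCLM.contDiff.comp (contDiff_pi.1 hγ i)
  have him : ∀ i, ContDiff ℝ (⊤ : ℕ∞) (fun x => (γ x i).im) := fun i =>
    Complex.imCLM.contDiff.comp (contDiff_pi.1 hγ i)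
  exact ((hre j).mul (him k)).sub ((him j).mul (hre k))

lemma contDiff_rr {X : Type*} [NormedAddCommGroup X] [NormedSpace ℝ X]
    {γ : X → E} (hγ : ContDiff ℝ (⊤ : ℕ∞) γ) :
    ContDiff ℝ (⊤ : ℕ∞) (fun x => rr (γ x)) :=
  (((contDiff_mu hγ 2 3).pow 2).add ((contDiff_mu hγ 3 1).pow 2)).add ((contDiff_mu hγ 1 2).pow 2)

lemma contDiff_twist {X : Type*} [NormedAddCommGroup X] [NormedSpace ℝ X]
    {f : X → ℝ} {γ : X → E} (hf : ContDiff ℝ (⊤ : ℕ∞) f) (hγ : ContDiff ℝ (⊤ : ℕ∞) γ) :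
    ContDiff ℝ (⊤ : ℕ∞) (fun x => twist (f x) (γ x)) := by
  have hk : ContDiff ℝ (⊤ : ℕ∞) (fun x => (gz (γ x)).k (f x)) := by
    unfold Gen.k
    exact contDiff_const.div (contDiff_const.add ((hf.pow 2).mul (contDiff_rr hγ)))
      fun x => ((gz (γ x)).den_pos (f x)).ne'
  have hc : ∀ {u : X → ℝ}, ContDiff ℝ (⊤ : ℕ∞) u → ContDiff ℝ (⊤ : ℕ∞) (fun x => (u x : ℂ)) :=
    fun hu => Complex.ofRealCLM.contDiff.comp hu
  have ha := hc (hk.sub (contDiff_const (c := (1 : ℝ))))
  have hb := hc (hk.mul hf)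
  have hm := fun j k => hc (contDiff_mu hγ j k)
  have hz := fun j => contDiff_pi.1 hγ j
  simp only [twist_eq]
  refine contDiff_pi.2 fun j => ?_
  fin_cases j
  · exact hz 0
  · exact (ha.mul (hz 1)).add (hb.mul (((hm 3 1).mul (hz 3)).sub ((hm 1 2).mul (hz 2))))
  · exact (ha.mul (hz 2)).add (hb.mul (((hm 1 2).mul (hz 1)).sub ((hm 2 3).mul (hz 3))))
  · exact (ha.mul (hz 3)).add (hb.mul (((hm 2 3).mul (hz 2)).sub ((hm 3 1).mul (hz 1))))
  · exact hz 4

/-- `log (1 + x) / x`, extended analytically through `0`. -/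
noncomputable def Lg : ℝ → ℝ := dslope (fun x => Real.log (1 + x)) 0

lemma Lg_mul (x : ℝ) : x * Lg x = Real.log (1 + x) := by
  have := sub_smul_dslope (fun x => Real.log (1 + x)) 0 x
  simpa [Lg] using this

lemma Lg_zero : Lg 0 = 1 := by
  have h : HasDerivAt (fun x : ℝ => Real.log (1 + x)) 1 0 := by
    have := ((hasDerivAt_id (0 : ℝ)).const_add 1).log (by simp)
    simpa using this
  simp [Lg, h.deriv]

lemma contDiffAt_Lg {x : ℝ} (hx : 0 ≤ x) : ContDiffAt ℝ (⊤ : ℕ∞) Lg x := by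
  rcases hx.eq_or_lt with rfl | hx
  · have h : AnalyticAt ℝ (fun x : ℝ => Real.log (1 + x)) 0 :=
      AnalyticAt.log (by fun_prop) (by simp)
    obtain ⟨p, hp⟩ := h
    exact (hp.has_fpower_series_dslope_fslope.analyticAt).contDiffAt
  · have h1 : ContDiffAt ℝ (⊤ : ℕ∞) (fun y : ℝ => Real.log (1 + y) / y) x :=
      (ContDiffAt.log (by fun_prop) (by positivity)).div contDiffAt_id hx.ne'
    refine h1.congr_of_eventuallyEq ?_
    filter_upwards [lt_mem_nhds hx] with y hy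
    rw [← Lg_mul, mul_div_cancel_left₀ _ hy.ne']

lemma hasDerivAt_G (τ : ℝ) {r : ℝ} (hr : 0 ≤ r) :
    HasDerivAt (fun x => x * Lg (τ ^ 2 * x)) (1 / (1 + τ ^ 2 * r)) r := by
  rcases eq_or_ne τ 0 with rfl | hτ
  · simpa [Lg_zero] using hasDerivAt_id' r
  · have h1 : (fun x => x * Lg (τ ^ 2 * x)) = fun x => Real.log (1 + τ ^ 2 * x) / τ ^ 2 := by
      funext x
      rw [← Lg_mul]
      field_simp
    rw [h1]
    have h2 : 0 < 1 + τ ^ 2 * r := by positivity
    have := ((((hasDerivAt_id r).const_mul (τ ^ 2)).const_add 1).log h2.ne').div_const (τ ^ 2)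
    refine HasDerivAt.congr_deriv this ?_
    simp only [id]
    field_simp

lemma hasDerivAt_mu (p w : E) (j k : Fin 5) :
    HasDerivAt (fun τ : ℝ => mu (p + τ • w) j k)
      ((w j).re * (p k).im + (p j).re * (w k).im - ((w j).im * (p k).re + (p j).im * (w k).re))
      0 := by
  have h := hasDerivAt_line p w
  have hre := fun i => hasDerivAt_re (hasDerivAt_pi.1 h i)
  have him := fun i => hasDerivAt_im (hasDerivAt_pi.1 h i)
  have := ((hre j).mul (him k)).sub ((him j).mul (hre k))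
  refine HasDerivAt.congr_deriv this ?_
  simp

lemma hasDerivAt_rr (p w : E) :
    HasDerivAt (fun τ : ℝ => rr (p + τ • w)) (2 * (herm ((gz p).B p) w).im) 0 := by
  have := (((hasDerivAt_mu p w 2 3).pow 2).add ((hasDerivAt_mu p w 3 1).pow 2)).add
    ((hasDerivAt_mu p w 1 2).pow 2)
  refine HasDerivAt.congr_deriv this ?_
  simp [herm, Fin.sum_univ_five, gz_B]
  ring

/-- The twist isotopy as a Hamiltonian lift. -/
noncomputable def base : HamiltonianConeLift where
  Ψ := fun p => twist (3 / 2 * p.1) p.2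
  H := fun p => 3 * (rr p.2 * Lg ((3 / 2 * p.1) ^ 2 * rr p.2))
  smooth_Ψ := contDiff_twist (contDiff_const.mul contDiff_fst) contDiff_snd
  smooth_H := by
    refine contDiff_const.mul ((contDiff_rr contDiff_snd).mul ?_)
    refine contDiff_iff_contDiffAt.2 fun p => ?_
    refine (contDiffAt_Lg ?_).comp p
      (((contDiff_const.mul contDiff_fst).pow 2).mul (contDiff_rr contDiff_snd)).contDiffAt
    have := rr_nonneg p.2
    positivity
  mapsTo_cone := fun t z hz => (gz z).cay_mem_cone _ hz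
  compatible := fun t z _ c hc => ⟨c, by simp only [twist, gz_smul c hc, Gen.cay_smul]⟩
  start := fun z _ => ⟨1, by simp [twist, Gen.cay_zero]⟩
  invariant := fun t z _ c hc => by simp only [← gz_ρ, gz_smul c hc]
  hamilton := fun t _ z _ w _ => by
    have hne : ((⊤ : ℕ∞) : WithTop ℕ∞) ≠ 0 := by simp
    have h0 := (gz z).hasDerivAt_cay (hasDerivAt_const (3 / 2 * t) z)
    have h1 := (HasDerivAt.scomp t h0 ((hasDerivAt_id t).const_mul (3 / 2))).deriv
    have h1' : deriv (fun s : ℝ => twist (3 / 2 * s) z) t =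
        (3 / 2 * (gz z).k (3 / 2 * t)) • (gz z).B (twist (3 / 2 * t) z) := by
      refine h1.trans ?_
      have h00 : (gz z).cay (3 / 2 * t) 0 = 0 := by simp [Gen.cay]
      rw [h00, add_zero, smul_smul, mul_one, twist]
    simp only
    rw [h1']
    set q := twist (3 / 2 * t) z with hq
    have hgq : gz q = gz z := gz_twist _ _
    have hdiff : DifferentiableAt ℝ
        (fun x : E => 3 * (rr x * Lg ((3 / 2 * t) ^ 2 * rr x))) q := by
      have h2 : ContDiffAt ℝ (⊤ : ℕ∞) (fun x : E => 3 * (rr x * Lg ((3 / 2 * t) ^ 2 * rr x))) q := by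
        refine contDiffAt_const.mul ((contDiff_rr contDiff_id).contDiffAt.mul ?_)
        refine (contDiffAt_Lg ?_).comp q (contDiff_const.mul (contDiff_rr contDiff_id)).contDiffAt
        have := rr_nonneg q
        positivity
      exact h2.differentiableAt hne
    have h3 := ((hasDerivAt_G (3 / 2 * t) (rr_nonneg q)).comp_of_eq (0 : ℝ)
      (hasDerivAt_rr q w) (by simp)).const_mul 3
    rw [fderiv_apply_eq hdiff h3, herm_rsmul_left, ← hgq, Complex.im_ofReal_mul, Gen.k, gz_ρ]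
    ring

end Crest.Agent.R205
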